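import Vale.Agent.P224.SP.K.K0
import Vale.Agent.P224.SP.K.K1
import Vale.Agent.P224.SP.K.K2
import Vale.Agent.P224.SP.K.K3
import Vale.Agent.P224.SP.K.K4
import Vale.Agent.P224.SP.K.K5
import Vale.Agent.P224.SP.K.K6
import Vale.Agent.P224.SP.K.K7
import Vale.Agent.P224.SP.K.K8
import Vale.Agent.P224.SP.K.K9
import Vale.Agent.P224.SP.K.K10
import Vale.Agent.P224.SP.K.K11
import Vale.Agent.P224.SP.K.K12
import Vale.Agent.P224.SP.K.K13
import Vale.Agent.P224.SP.K.K14
import Vale.Agent.P224.SP.K.K15
import Vale.Agent.P224.SP.K.K16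
import Vale.Agent.P224.SP.K.K17
import Vale.Agent.P224.SP.TSum

/-!
The sum over the Bernstein coefficients.
-/

namespace Vale.Agent.P224.SP.K.TS

open Vale.Agent.P224.UE Vale.Agent.P224.POS Vale.Agent.P224.PO Vale.Agent.P224.SP
open scoped RealInnerProductSpace

noncomputable section

/-- the polynomial in `s, τ, u, v, T` -/
def Q : PE :=
  .add (.add (.mul (.v 3) (.mul (.v 3) (.add (.add (.c 2234327534) (.mul (.v 0) (.add (.c (-5240785812)) (.mul (.v 0) (.add (.c 4248292446) (.mul (.v 0) (.c (-1114601530)))))))) (.mul (.v 1) (.add (.add (.c (-6812606548)) (.mul (.v 0) (.add (.c (-46340274684)) (.mul (.v 0) (.add (.c 52789693512) (.mul (.v 0) (.c 6557619840))))))) (.mul (.v 1) (.add (.c 6422914880) (.mul (.v 0) (.add (.c 94047868480) (.mul (.v 0) (.add (.c 416642407680) (.mul (.v 0) (.c 72675828480))))))))))))) (.mul (.v 2) (.mul (.v 2) (.add (.add (.add (.add (.c 6282660758948) (.mul (.v 0) (.add (.c 3946045691702) (.mul (.v 0) (.add (.c (-2592787699034)) (.mul (.v 0) (.add (.c (-88949303600))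 (.mul (.v 0) (.c 987555859200))))))))) (.mul (.v 1) (.add (.add (.c (-635372315170)) (.mul (.v 0) (.add (.c (-1511738141078)) (.mul (.v 0) (.add (.c 3130748084848) (.mul (.v 0) (.add (.c (-1544931871344)) (.mul (.v 0) (.c 319952567040))))))))) (.mul (.v 1) (.add (.add (.c 1677555900040) (.mul (.v 0) (.add (.c 10632324389274) (.mul (.v 0) (.add (.c (-12271997492800)) (.mul (.v 0) (.add (.c 6465931100160) (.mul (.v 0) (.c (-577685207040)))))))))) (.mul (.v 1) (.add (.c 3938448380392) (.mul (.v 0) (.add (.c (-9794223732160)) (.mul (.v 0) (.add (.c 5269579608960) (.mul (.v 0) (.c (-577685207040)))))))))))))) (.mul (.v 3) (.add (.add (.c (-1794912106200)) (.mul (.v 0) (.add (.c (-5085078710838)) (.mul (.v 0) (.add (.c (-578760796220)) (.mul (.v 0) (.c 987555859200))))))) (.mul (.v 1) (.add (.add (.c (-626681296728)) (.mul (.v 0) (.add (.c 3650917725594) (.mul (.v 0) (.add (.c (-5196812855040)) (.mul (.v 0) (.c 319952567040))))))) (.mul (.v 1) (.add (.c 3938448552640) (.mul (.v 0) (.add (.c (-9794223732160))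 (.mul (.v 0) (.add (.c 5269579608960) (.mul (.v 0) (.c (-577685207040)))))))))))))) (.mul (.v 2) (.mul (.v 2) (.add (.add (.c 865812) (.mul (.v 0) (.c 27360))) (.mul (.v 1) (.c 266220))))))))) (.mul (.v 4) (.add (.add (.mul (.v 3) (.mul (.v 3) (.add (.add (.c 12886688732) (.mul (.v 0) (.add (.c (-18688600222)) (.mul (.v 0) (.add (.c 57085482268) (.mul (.v 0) (.add (.c (-20171823062)) (.mul (.v 0) (.c 1114600820))))))))) (.mul (.v 1) (.add (.add (.c (-21174554632)) (.mul (.v 0) (.add (.c 224326568380) (.mul (.v 0) (.add (.c (-312058940464)) (.mul (.v 0) (.add (.c 8202519408) (.mul (.v 0) (.c (-6557619840)))))))))) (.mul (.v 1) (.add (.c 25399765504) (.mul (.v 0) (.add (.c (-358836113216)) (.mul (.v 0) (.add (.c 369845314624) (.mul (.v 0) (.add (.c 444036827904) (.mul (.v 0) (.c 72675828480))))))))))))))) (.mul (.v 2) (.mul (.v 2) (.add (.add (.add (.add (.c 3214057633744) (.mul (.v 0) (.add (.c 1901413190022) (.mul (.v 0) (.add (.c 11152013136426) (.mul (.v 0) (.add (.c 756112920990) (.mul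 (.v 0) (.add (.c (-6262878701600)) (.mul (.v 0) (.c 987555859200))))))))))) (.mul (.v 1) (.add (.add (.c 2201455026306) (.mul (.v 0) (.add (.c 5064505107778) (.mul (.v 0) (.add (.c (-9569272462158)) (.mul (.v 0) (.add (.c (-1108512686774)) (.mul (.v 0) (.add (.c (-669571548960)) (.mul (.v 0) (.c 319952567040))))))))))) (.mul (.v 1) (.add (.add (.c (-1065000037640)) (.mul (.v 0) (.add (.c (-92886583750752)) (.mul (.v 0) (.add (.c 85732077787552) (.mul (.v 0) (.add (.c (-15936555701312)) (.mul (.v 0) (.add (.c (-5924741895552)) (.mul (.v 0) (.c (-1733055621120)))))))))))) (.mul (.v 1) (.add (.c (-26630471054592)) (.mul (.v 0) (.add (.c 30528789217928) (.mul (.v 0) (.add (.c 7794983407168) (.mul (.v 0) (.add (.c (-8873891235072)) (.mul (.v 0) (.c (-1733055621120)))))))))))))))) (.mul (.v 3) (.add (.add (.c 1320112917806) (.mul (.v 0) (.add (.c 5127452808644) (.mul (.v 0) (.add (.c 4525651606258) (.mul (.v 0) (.add (.c (-6752690117220)) (.mul (.v 0) (.c 987555859200))))))))) (.mul (.v 1) (.add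 (.add (.c 7228068308824) (.mul (.v 0) (.add (.c (-36601706429312)) (.mul (.v 0) (.add (.c 28520363103040) (.mul (.v 0) (.add (.c (-4321452540288)) (.mul (.v 0) (.c 319952567040))))))))) (.mul (.v 1) (.add (.c (-26630530823808)) (.mul (.v 0) (.add (.c 30528788946752) (.mul (.v 0) (.add (.c 7794983407168) (.mul (.v 0) (.add (.c (-8873891235072)) (.mul (.v 0) (.c (-1733055621120)))))))))))))))) (.mul (.v 2) (.mul (.v 2) (.add (.add (.c (-10644593986248)) (.mul (.v 0) (.add (.c (-12302028)) (.mul (.v 0) (.c (-54720)))))) (.mul (.v 1) (.add (.c (-91888704)) (.mul (.v 0) (.c (-383220)))))))))))) (.mul (.v 4) (.add (.add (.mul (.v 3) (.mul (.v 3) (.add (.add (.c (-216180572314)) (.mul (.v 0) (.add (.c 296715007300) (.mul (.v 0) (.add (.c (-779795651078)) (.mul (.v 0) (.add (.c 4952303572) (.mul (.v 0) (.add (.c 180966441106) (.mul (.v 0) (.c 3343807430))))))))))) (.mul (.v 1) (.add (.add (.c 383465600800) (.mul (.v 0) (.add (.c (-3360816787528)) (.mul (.v 0) (.add (.c 4616828678124) (.mul (.v 0)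 (.add (.c (-54701376876)) (.mul (.v 0) (.add (.c (-314784184632)) (.mul (.v 0) (.c (-19672859520)))))))))))) (.mul (.v 1) (.add (.c (-458874300672)) (.mul (.v 0) (.add (.c 5364071215360) (.mul (.v 0) (.add (.c (-8783058734720)) (.mul (.v 0) (.add (.c (-2579492476160)) (.mul (.v 0) (.add (.c (-2168747121408)) (.mul (.v 0) (.c (-363379142400)))))))))))))))))) (.mul (.v 2) (.mul (.v 2) (.add (.add (.add (.add (.c (-13308331683522)) (.mul (.v 0) (.add (.c (-170937522132936)) (.mul (.v 0) (.add (.c (-104952438876474)) (.mul (.v 0) (.add (.c 70605400984734) (.mul (.v 0) (.add (.c 24114634210412) (.mul (.v 0) (.add (.c 5828631307600) (.mul (.v 0) (.c (-4937779296000)))))))))))))) (.mul (.v 1) (.add (.add (.c 8805779630962) (.mul (.v 0) (.add (.c (-86927785265746)) (.mul (.v 0) (.add (.c 47374151549360) (.mul (.v 0) (.add (.c 20078036852536) (.mul (.v 0) (.add (.c 3462253669258) (.mul (.v 0) (.add (.c 6593336973072) (.mul (.v 0) (.c (-1599762835200)))))))))))))) (.mul (.v 1) (.add (.add (.c 15687708832636)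 (.mul (.v 0) (.add (.c 950208232898806) (.mul (.v 0) (.add (.c (-543950751337576)) (.mul (.v 0) (.add (.c (-194516907575290)) (.mul (.v 0) (.add (.c 263121667586880) (.mul (.v 0) (.add (.c (-37947306791616)) (.mul (.v 0) (.c 2310740828160))))))))))))) (.mul (.v 1) (.add (.c 35995710206360) (.mul (.v 0) (.add (.c 162766377544048) (.mul (.v 0) (.add (.c (-429844459015536)) (.mul (.v 0) (.add (.c 263805082907520) (.mul (.v 0) (.add (.c (-32841948259776)) (.mul (.v 0) (.c 2310740828160))))))))))))))))) (.mul (.v 3) (.add (.add (.c 47835069466180) (.mul (.v 0) (.add (.c (-3692148505390)) (.mul (.v 0) (.add (.c (-115360935534420)) (.mul (.v 0) (.add (.c 45364608740888) (.mul (.v 0) (.add (.c 8277688599200) (.mul (.v 0) (.c (-4937779296000)))))))))))) (.mul (.v 1) (.add (.add (.c (-161586313260556)) (.mul (.v 0) (.add (.c 296729008463542) (.mul (.v 0) (.add (.c (-105479632895336)) (.mul (.v 0) (.add (.c (-25325794768858)) (.mul (.v 0) (.add (.c 24852741906816) (.mul (.v 0) (.c (-1599762835200))))))))))))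 (.mul (.v 1) (.add (.c 66731989481984) (.mul (.v 0) (.add (.c 162766473051520) (.mul (.v 0) (.add (.c (-429844458916608)) (.mul (.v 0) (.add (.c 263805082907520) (.mul (.v 0) (.add (.c (-32841948259776)) (.mul (.v 0) (.c 2310740828160))))))))))))))))) (.mul (.v 2) (.mul (.v 2) (.add (.add (.c (-30258929424468)) (.mul (.v 0) (.add (.c (-3600183960696)) (.mul (.v 0) (.add (.c 22293240) (.mul (.v 0) (.c 27360))))))) (.mul (.v 1) (.add (.c 30738134464308) (.mul (.v 0) (.add (.c 133009368) (.mul (.v 0) (.c 117000))))))))))))) (.mul (.v 4) (.add (.add (.mul (.v 3) (.mul (.v 3) (.add (.add (.c 1637618026506) (.mul (.v 0) (.add (.c (-3772947689210)) (.mul (.v 0) (.add (.c 19259767834794) (.mul (.v 0) (.add (.c (-28198018735834)) (.mul (.v 0) (.add (.c 16642685021780) (.mul (.v 0) (.add (.c (-464351580698)) (.mul (.v 0) (.c (-5573011200)))))))))))))) (.mul (.v 1) (.add (.add (.c (-2004922468664)) (.mul (.v 0) (.add (.c 22412089873656) (.mul (.v 0) (.add (.c (-43524290136884)) (.mul (.v 0) (.add (.c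 24368054953284) (.mul (.v 0) (.add (.c (-7181966471144)) (.mul (.v 0) (.add (.c 367240502400) (.mul (.v 0) (.c 32788099200))))))))))))) (.mul (.v 1) (.add (.c 1436655979072) (.mul (.v 0) (.add (.c (-22224587060352)) (.mul (.v 0) (.add (.c (-8307244056960)) (.mul (.v 0) (.add (.c 98380748775168) (.mul (.v 0) (.add (.c (-19187554699264)) (.mul (.v 0) (.add (.c 1338814128384) (.mul (.v 0) (.c 218027485440))))))))))))))))))) (.mul (.v 2) (.mul (.v 2) (.add (.add (.add (.add (.c 27511263704466) (.mul (.v 0) (.add (.c 786748069485096) (.mul (.v 0) (.add (.c 764367390298450) (.mul (.v 0) (.add (.c (-413646282790952)) (.mul (.v 0) (.add (.c (-247398870567582)) (.mul (.v 0) (.add (.c 37937589762512) (.mul (.v 0) (.add (.c 7487170704000) (.mul (.v 0) (.c 2962667577600))))))))))))))) (.mul (.v 1) (.add (.add (.c (-111778774864120)) (.mul (.v 0) (.add (.c 687188087324022) (.mul (.v 0) (.add (.c (-416296014399328)) (.mul (.v 0) (.add (.c 320077910470702) (.mul (.v 0) (.add (.c (-216461328487944)) (.mul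 (.v 0) (.add (.c (-16563783930692)) (.mul (.v 0) (.add (.c (-4998231813888)) (.mul (.v 0) (.c 959857701120))))))))))))))) (.mul (.v 1) (.add (.add (.c 42269167814718) (.mul (.v 0) (.add (.c (-5463510284140028)) (.mul (.v 0) (.add (.c 2851512522046240) (.mul (.v 0) (.add (.c 669798388784832) (.mul (.v 0) (.add (.c (-1148717908009728)) (.mul (.v 0) (.add (.c 87293589907136) (.mul (.v 0) (.c 37406117587008))))))))))))) (.mul (.v 1) (.add (.c (-568600622341408)) (.mul (.v 0) (.add (.c (-181777834164056)) (.mul (.v 0) (.add (.c 1178196422257424) (.mul (.v 0) (.add (.c (-986990407960000)) (.mul (.v 0) (.add (.c 61020259978496) (.mul (.v 0) (.c 36446259885888))))))))))))))))) (.mul (.v 3) (.add (.add (.add (.c (-177581351260170)) (.mul (.v 0) (.add (.c 344858813817646) (.mul (.v 0) (.add (.c (-53469082546680)) (.mul (.v 0) (.add (.c 62654189453688) (.mul (.v 0) (.add (.c (-5901804611668)) (.mul (.v 0) (.add (.c 6017736320640) (.mul (.v 0) (.c 2962667577600))))))))))))) (.mul (.v 1) (.add (.add (.c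 1199816476277942) (.mul (.v 0) (.add (.c (-2601261940350084)) (.mul (.v 0) (.add (.c 1823414308886784) (.mul (.v 0) (.add (.c (-433455944762112)) (.mul (.v 0) (.add (.c (-49954992962816)) (.mul (.v 0) (.add (.c (-15953874772608)) (.mul (.v 0) (.c 959857701120))))))))))))) (.mul (.v 1) (.add (.c (-581005418107648)) (.mul (.v 0) (.add (.c (-224041057228544)) (.mul (.v 0) (.add (.c 1178196386519168) (.mul (.v 0) (.add (.c (-986990407960000)) (.mul (.v 0) (.add (.c 61020259978496) (.mul (.v 0) (.c 36446259885888))))))))))))))) (.mul (.v 3) (.c 7710868738944))))) (.mul (.v 2) (.mul (.v 2) (.add (.add (.c (-50318649040152)) (.mul (.v 0) (.add (.c 85260172141740) (.mul (.v 0) (.add (.c 20726641806336) (.mul (.v 0) (.c (-10857024)))))))) (.mul (.v 1) (.add (.c (-12447792906288)) (.mul (.v 0) (.add (.c (-42265354418676)) (.mul (.v 0) (.c (-41120664)))))))))))))) (.mul (.v 4) (.add (.add (.mul (.v 3) (.mul (.v 3) (.add (.add (.c (-7505156335014)) (.mul (.v 0) (.add (.c 16153576495924) (.mul (.v 0)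 (.add (.c (-106137798792250)) (.mul (.v 0) (.add (.c 177070877224448) (.mul (.v 0) (.add (.c (-110994663497640)) (.mul (.v 0) (.add (.c 4578861564944) (.mul (.v 0) (.add (.c 445249668096) (.mul (.v 0) (.c 2229204480))))))))))))))) (.mul (.v 1) (.add (.add (.c 6010376256340) (.mul (.v 0) (.add (.c (-77119057974444)) (.mul (.v 0) (.add (.c 197134424384796) (.mul (.v 0) (.add (.c (-182366831952928)) (.mul (.v 0) (.add (.c 75833220497832) (.mul (.v 0) (.add (.c (-6211398103680)) (.mul (.v 0) (.add (.c (-86886996096)) (.mul (.v 0) (.c (-13115239680)))))))))))))))) (.mul (.v 1) (.add (.c (-1115663331776)) (.mul (.v 0) (.add (.c 40665108580608) (.mul (.v 0) (.add (.c 149385726052992) (.mul (.v 0) (.add (.c (-510519083866880)) (.mul (.v 0) (.add (.c 143527127255552) (.mul (.v 0) (.add (.c 6067015670912) (.mul (.v 0) (.c (-30746242560)))))))))))))))))))) (.mul (.v 2) (.mul (.v 2) (.add (.add (.add (.add (.c (-28464443641220)) (.mul (.v 0) (.add (.c (-2203474906886820)) (.mul (.v 0) (.add (.c (-2580765899871602))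 (.mul (.v 0) (.add (.c 1614611222197994) (.mul (.v 0) (.add (.c 920619605630594) (.mul (.v 0) (.add (.c (-452389047502304)) (.mul (.v 0) (.add (.c 122387752305920) (.mul (.v 0) (.c (-6963974006400)))))))))))))))) (.mul (.v 1) (.add (.add (.c 430691686322116) (.mul (.v 0) (.add (.c (-2647901195353554)) (.mul (.v 0) (.add (.c 2077333078259116) (.mul (.v 0) (.add (.c (-1944162983176948)) (.mul (.v 0) (.add (.c 608833232400786) (.mul (.v 0) (.add (.c 322006158251956) (.mul (.v 0) (.add (.c (-17841043766144)) (.mul (.v 0) (.c 619398261120))))))))))))))) (.mul (.v 1) (.add (.add (.c (-666833717444182)) (.mul (.v 0) (.add (.c 16909630835232798) (.mul (.v 0) (.add (.c (-8128782884377694)) (.mul (.v 0) (.add (.c (-1249024281342478)) (.mul (.v 0) (.add (.c 3374092565254528) (.mul (.v 0) (.add (.c (-464003185178752)) (.mul (.v 0) (.c (-62253259503104)))))))))))))) (.mul (.v 1) (.add (.c 3072518804175392) (.mul (.v 0) (.add (.c (-1108345692825368)) (.mul (.v 0) (.add (.c (-267526507713792)) (.mul (.v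 0) (.add (.c 1934425992288064) (.mul (.v 0) (.add (.c (-287908959901184)) (.mul (.v 0) (.c (-62872657764224)))))))))))))))))) (.mul (.v 3) (.add (.add (.add (.c 303542478933196) (.mul (.v 0) (.add (.c (-1572559753185400)) (.mul (.v 0) (.add (.c 2269245028806118) (.mul (.v 0) (.add (.c (-1018796252120486)) (.mul (.v 0) (.add (.c (-442644244255504)) (.mul (.v 0) (.add (.c 143699924476160) (.mul (.v 0) (.c (-6963974006400)))))))))))))) (.mul (.v 1) (.add (.add (.c (-4117705718636790)) (.mul (.v 0) (.add (.c 10761952042171190) (.mul (.v 0) (.add (.c (-9408898566729814)) (.mul (.v 0) (.add (.c 2675820002739954) (.mul (.v 0) (.add (.c 266915200851904) (.mul (.v 0) (.add (.c 14189168273536) (.mul (.v 0) (.c 619398261120))))))))))))) (.mul (.v 1) (.add (.c 2440794987704000) (.mul (.v 0) (.add (.c (-1091268319761728)) (.mul (.v 0) (.add (.c (-255999563924928)) (.mul (.v 0) (.add (.c 1934425992288064) (.mul (.v 0) (.add (.c (-287908959901184)) (.mul (.v 0) (.c (-62872657764224)))))))))))))))) (.mul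 (.v 3) (.add (.c (-18957121569792)) (.mul (.v 0) (.c (-1632210749568)))))))) (.mul (.v 2) (.mul (.v 2) (.add (.add (.c 291869470487988) (.mul (.v 0) (.add (.c (-1621619596936872)) (.mul (.v 0) (.add (.c (-72374479161696)) (.mul (.v 0) (.c (-6481863859392)))))))) (.mul (.v 1) (.add (.c (-631194221838768)) (.mul (.v 0) (.add (.c 17126104688676) (.mul (.v 0) (.c 11527219954368))))))))))))) (.mul (.v 4) (.add (.add (.mul (.v 3) (.mul (.v 3) (.add (.add (.c 23190978329230) (.mul (.v 0) (.add (.c (-26698002334800)) (.mul (.v 0) (.add (.c 273290915494094) (.mul (.v 0) (.add (.c (-473433444211012)) (.mul (.v 0) (.add (.c 319337143781094) (.mul (.v 0) (.add (.c (-36075053029192)) (.mul (.v 0) (.add (.c 7483139503296) (.mul (.v 0) (.c (-145940997888)))))))))))))))) (.mul (.v 1) (.add (.add (.c (-11795996097356)) (.mul (.v 0) (.add (.c 154527464384900) (.mul (.v 0) (.add (.c (-472568927322524)) (.mul (.v 0) (.add (.c 536852867492000) (.mul (.v 0) (.add (.c (-244033639480540)) (.mul (.v 0) (.add (.c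 13387184041152) (.mul (.v 0) (.add (.c 2862205879680) (.mul (.v 0) (.c (-26561534592)))))))))))))))) (.mul (.v 1) (.add (.c (-2226657997376)) (.mul (.v 0) (.add (.c (-36834000137024)) (.mul (.v 0) (.add (.c (-373166050339968)) (.mul (.v 0) (.add (.c 1068183938447168) (.mul (.v 0) (.add (.c (-302839335865664)) (.mul (.v 0) (.add (.c (-49199400637312)) (.mul (.v 0) (.c 2986032627968))))))))))))))))))) (.mul (.v 2) (.mul (.v 2) (.add (.add (.add (.add (.c (-81252322461410)) (.mul (.v 0) (.add (.c 3834574892631984) (.mul (.v 0) (.add (.c 4653700090813750) (.mul (.v 0) (.add (.c (-3916520014223170)) (.mul (.v 0) (.add (.c (-1675017293380134)) (.mul (.v 0) (.add (.c 1435205914431734) (.mul (.v 0) (.add (.c (-610090154370112)) (.mul (.v 0) (.c 29525931432320))))))))))))))) (.mul (.v 1) (.add (.add (.c (-749023680789250)) (.mul (.v 0) (.add (.c 5521606564071192) (.mul (.v 0) (.add (.c (-4741557280276622)) (.mul (.v 0) (.add (.c 3387763960793212) (.mul (.v 0) (.add (.c 261816842873752) (.mul (.v 0)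 (.add (.c (-1288309322963728)) (.mul (.v 0) (.add (.c 54980778568000) (.mul (.v 0) (.c 537170990464))))))))))))))) (.mul (.v 1) (.add (.add (.c 2143797338404066) (.mul (.v 0) (.add (.c (-28650998298997492)) (.mul (.v 0) (.add (.c 14416472647427814) (.mul (.v 0) (.add (.c (-426244405170146)) (.mul (.v 0) (.add (.c (-5091964120831680)) (.mul (.v 0) (.add (.c 844007679837376) (.mul (.v 0) (.c 2204496305344))))))))))))) (.mul (.v 1) (.add (.add (.c (-5821577145211048)) (.mul (.v 0) (.add (.c 1736805118394560) (.mul (.v 0) (.add (.c (-2666527068977544)) (.mul (.v 0) (.add (.c (-2035193537934720)) (.mul (.v 0) (.add (.c 571264654032960) (.mul (.v 0) (.c 1667325314880))))))))))) (.mul (.v 1) (.c 5624482469769216))))))))) (.mul (.v 3) (.add (.add (.add (.c (-196759152715292)) (.mul (.v 0) (.add (.c 3181011022557062) (.mul (.v 0) (.add (.c (-6387993210361698)) (.mul (.v 0) (.add (.c 2273913556145390) (.mul (.v 0) (.add (.c 1927065424900318) (.mul (.v 0) (.add (.c (-671617569164864)) (.mul (.v 0) (.c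 29525931432320))))))))))))) (.mul (.v 1) (.add (.add (.c 7545264940211434) (.mul (.v 0) (.add (.c (-21644776886349540)) (.mul (.v 0) (.add (.c 19920157199566046) (.mul (.v 0) (.add (.c (-4846071160530650)) (.mul (.v 0) (.add (.c (-1326097505468160)) (.mul (.v 0) (.add (.c 39254950720576) (.mul (.v 0) (.c 537170990464))))))))))))) (.mul (.v 1) (.add (.c (-4482031084560640)) (.mul (.v 0) (.add (.c 2388711344535040) (.mul (.v 0) (.add (.c (-2671199646274944)) (.mul (.v 0) (.add (.c (-2035193537934720)) (.mul (.v 0) (.add (.c 571264654032960) (.mul (.v 0) (.c 1667325314880))))))))))))))) (.mul (.v 3) (.add (.c 2704984319232) (.mul (.v 0) (.add (.c 11596361960448) (.mul (.v 0) (.c (-9184319243136)))))))))) (.mul (.v 2) (.mul (.v 2) (.add (.add (.add (.add (.c 687695025784272) (.mul (.v 0) (.add (.c 3386095659562764) (.mul (.v 0) (.add (.c 501161240347464) (.mul (.v 0) (.c 17373236444424))))))) (.mul (.v 1) (.add (.add (.c 1335566434945620) (.mul (.v 0) (.add (.c 338841932808480) (.mul (.v 0) (.c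 (-4678311782388)))))) (.mul (.v 1) (.c (-3749654979846144)))))) (.mul (.v 3) (.mul (.v 0) (.c (-312471248320512))))) (.mul (.v 2) (.mul (.v 2) (.c (-1874827489923072))))))))))) (.mul (.v 4) (.add (.add (.mul (.v 3) (.mul (.v 3) (.add (.add (.c (-52080710139872)) (.mul (.v 0) (.add (.c (-9746794212836)) (.mul (.v 0) (.add (.c (-396296588107018)) (.mul (.v 0) (.add (.c 658407528347182) (.mul (.v 0) (.add (.c (-475235219792032)) (.mul (.v 0) (.add (.c 93096056683280) (.mul (.v 0) (.add (.c (-33204604134272)) (.mul (.v 0) (.c 57618469632))))))))))))))) (.mul (.v 1) (.add (.add (.c 15807710156632) (.mul (.v 0) (.add (.c (-184275408168824)) (.mul (.v 0) (.add (.c 633254717090732) (.mul (.v 0) (.add (.c (-788816028292068)) (.mul (.v 0) (.add (.c 349201517942444) (.mul (.v 0) (.add (.c 9700341315840) (.mul (.v 0) (.add (.c (-9577225128512)) (.mul (.v 0) (.c 15083795328))))))))))))))) (.mul (.v 1) (.add (.c 5293497761920) (.mul (.v 0) (.add (.c 16928002037440) (.mul (.v 0) (.add (.c 396777110246272)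 (.mul (.v 0) (.add (.c (-1039738655084352)) (.mul (.v 0) (.add (.c 218159122831680) (.mul (.v 0) (.add (.c 102678275063360) (.mul (.v 0) (.c (-1245007024640)))))))))))))))))))) (.mul (.v 2) (.mul (.v 2) (.add (.add (.add (.add (.c 31635351995604) (.mul (.v 0) (.add (.c (-3819070150066218)) (.mul (.v 0) (.add (.c (-4319102811412802)) (.mul (.v 0) (.add (.c 4821117674484982) (.mul (.v 0) (.add (.c 1768080221095572) (.mul (.v 0) (.add (.c (-1782023087966878)) (.mul (.v 0) (.add (.c 924577824328640) (.mul (.v 0) (.c (-10272168332480)))))))))))))))) (.mul (.v 1) (.add (.add (.c 435880328628674) (.mul (.v 0) (.add (.c (-6220556396216616)) (.mul (.v 0) (.add (.c 4931295680632496) (.mul (.v 0) (.add (.c (-1775051183203600)) (.mul (.v 0) (.add (.c (-2188641158548204)) (.mul (.v 0) (.add (.c 1864115849250700) (.mul (.v 0) (.add (.c 55148844392320) (.mul (.v 0) (.c (-694223961280)))))))))))))))) (.mul (.v 1) (.add (.add (.c (-2717574896771286)) (.mul (.v 0) (.add (.c 26344768799579206) (.mul (.v 0)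 (.add (.c (-14237519737408232)) (.mul (.v 0) (.add (.c 2505081267331646) (.mul (.v 0) (.add (.c 3835524879709952) (.mul (.v 0) (.add (.c (-199451063938240)) (.mul (.v 0) (.c 9239843800000))))))))))))) (.mul (.v 1) (.add (.add (.c 4974395039783888) (.mul (.v 0) (.add (.c 491339215798840) (.mul (.v 0) (.add (.c 3317872348045280) (.mul (.v 0) (.add (.c 958122758197056) (.mul (.v 0) (.add (.c (-213410935999040)) (.mul (.v 0) (.c 9934067761280))))))))))) (.mul (.v 1) (.add (.c (-12599213921280000)) (.mul (.v 0) (.c (-431869314650112)))))))))))) (.mul (.v 3) (.add (.add (.add (.c (-411402425725280)) (.mul (.v 0) (.add (.c (-3616359862888636)) (.mul (.v 0) (.add (.c 7219283461763514) (.mul (.v 0) (.add (.c (-1365948491578034)) (.mul (.v 0) (.add (.c (-3160094379536582)) (.mul (.v 0) (.add (.c 942354093336000) (.mul (.v 0) (.c (-10272168332480)))))))))))))) (.mul (.v 1) (.add (.add (.c (-7440506227172006)) (.mul (.v 0) (.add (.c 21643418791946158) (.mul (.v 0) (.add (.c (-18754468915982512)) (.mul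 (.v 0) (.add (.c 2089663985772086) (.mul (.v 0) (.add (.c 2696830094882880) (.mul (.v 0) (.add (.c 53616483466240) (.mul (.v 0) (.c (-694223961280)))))))))))))) (.mul (.v 1) (.add (.c 4221968704337600) (.mul (.v 0) (.add (.c (-1123416853778816)) (.mul (.v 0) (.add (.c 3393887150061056) (.mul (.v 0) (.add (.c 958122758197056) (.mul (.v 0) (.add (.c (-213410935999040)) (.mul (.v 0) (.c 9934067761280))))))))))))))) (.mul (.v 3) (.add (.c 19443231360000) (.mul (.v 0) (.add (.c (-3624831827712)) (.mul (.v 0) (.add (.c 12152164631040) (.mul (.v 0) (.c 3105661253760))))))))))) (.mul (.v 2) (.mul (.v 2) (.add (.add (.add (.add (.c (-2422057482632304)) (.mul (.v 0) (.add (.c (-1633105914166272)) (.mul (.v 0) (.add (.c (-1712768635531992)) (.mul (.v 0) (.c 262700289908856))))))) (.mul (.v 1) (.add (.add (.c (-516351758527176)) (.mul (.v 0) (.add (.c (-910392418120140)) (.mul (.v 0) (.c 100070992097424))))) (.mul (.v 1) (.add (.c 8399475947520000) (.mul (.v 0) (.c 287912876433408))))))) (.mul (.v 3)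 (.add (.c 216330599854080) (.mul (.v 0) (.add (.c 699956328960000) (.mul (.v 0) (.c 23992739702784))))))) (.mul (.v 2) (.mul (.v 2) (.add (.c 4199737973760000) (.mul (.v 0) (.c 143956438216704)))))))))))) (.mul (.v 4) (.add (.add (.mul (.v 3) (.mul (.v 3) (.add (.add (.c 88866509189618) (.mul (.v 0) (.add (.c 126571196973058) (.mul (.v 0) (.add (.c 370206392956054) (.mul (.v 0) (.add (.c (-454972879803448)) (.mul (.v 0) (.add (.c 345946638487864) (.mul (.v 0) (.add (.c (-85155481697614)) (.mul (.v 0) (.add (.c 40569563598400) (.mul (.v 0) (.c 4320451786880))))))))))))))) (.mul (.v 1) (.add (.add (.c (-15022944152136)) (.mul (.v 0) (.add (.c 121047963560604) (.mul (.v 0) (.add (.c (-455531836570536)) (.mul (.v 0) (.add (.c 568723292868108) (.mul (.v 0) (.add (.c (-195282790657564)) (.mul (.v 0) (.add (.c (-60879631994432)) (.mul (.v 0) (.add (.c 8754599811200) (.mul (.v 0) (.c 1214198768960))))))))))))))) (.mul (.v 1) (.add (.c (-4214994138112)) (.mul (.v 0) (.add (.c (-6576586008448)) (.mul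 (.v 0) (.add (.c (-168490267918144)) (.mul (.v 0) (.add (.c 390656736427712) (.mul (.v 0) (.add (.c 44987523347648) (.mul (.v 0) (.add (.c (-87989139700864)) (.mul (.v 0) (.c (-12754836902400)))))))))))))))))))) (.mul (.v 2) (.mul (.v 2) (.add (.add (.add (.add (.c 653177724181932) (.mul (.v 0) (.add (.c 1905303547472284) (.mul (.v 0) (.add (.c 1488182855359730) (.mul (.v 0) (.add (.c (-2622061592929870)) (.mul (.v 0) (.add (.c (-1388901463026868)) (.mul (.v 0) (.add (.c 767055343476858) (.mul (.v 0) (.add (.c (-415272804827712)) (.mul (.v 0) (.c (-108001869048960)))))))))))))))) (.mul (.v 1) (.add (.add (.c 527423704825394) (.mul (.v 0) (.add (.c 3864412868178024) (.mul (.v 0) (.add (.c (-1361401015102422)) (.mul (.v 0) (.add (.c (-767900991936842)) (.mul (.v 0) (.add (.c 2032413157558756) (.mul (.v 0) (.add (.c (-863098496444196)) (.mul (.v 0) (.add (.c (-264407749716160)) (.mul (.v 0) (.c (-10212687004800)))))))))))))))) (.mul (.v 1) (.add (.add (.c (-40530402290204)) (.mul (.v 0) (.add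 (.c (-11870308035027578)) (.mul (.v 0) (.add (.c 4395270386848436) (.mul (.v 0) (.add (.c 551434104972402) (.mul (.v 0) (.add (.c (-1863507751827712)) (.mul (.v 0) (.add (.c (-515280649426688)) (.mul (.v 0) (.c 3935343739520))))))))))))) (.mul (.v 1) (.add (.add (.c (-2329467806205232)) (.mul (.v 0) (.add (.c (-1644434115494024)) (.mul (.v 0) (.add (.c (-1151531903851280)) (.mul (.v 0) (.add (.c (-143289294996672)) (.mul (.v 0) (.add (.c (-138673008011520)) (.mul (.v 0) (.c 14148030744320))))))))))) (.mul (.v 1) (.add (.c 7026011722506240) (.mul (.v 0) (.add (.c 2699801719603200) (.mul (.v 0) (.c (-577183270109184)))))))))))))) (.mul (.v 3) (.add (.add (.add (.c 1470934410634476) (.mul (.v 0) (.add (.c 3069630673029464) (.mul (.v 0) (.add (.c (-2701008682078528)) (.mul (.v 0) (.add (.c (-876173313933206)) (.mul (.v 0) (.add (.c 2121402794688598) (.mul (.v 0) (.add (.c (-243942294702912)) (.mul (.v 0) (.c (-108001869048960)))))))))))))) (.mul (.v 1) (.add (.add (.c 3370242285024532) (.mul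 (.v 0) (.add (.c (-8901034793044394)) (.mul (.v 0) (.add (.c 5362702796635052) (.mul (.v 0) (.add (.c 2572616950087050) (.mul (.v 0) (.add (.c (-2146083966891264)) (.mul (.v 0) (.add (.c (-378139786375360)) (.mul (.v 0) (.c (-10212687004800)))))))))))))) (.mul (.v 1) (.add (.c (-2069797482157120)) (.mul (.v 0) (.add (.c (-620868031515008)) (.mul (.v 0) (.add (.c (-976317645201152)) (.mul (.v 0) (.add (.c (-239486506681536)) (.mul (.v 0) (.add (.c (-138673008011520)) (.mul (.v 0) (.c 14148030744320))))))))))))))) (.mul (.v 3) (.add (.c (-10842610682880)) (.mul (.v 0) (.add (.c (-17359986562560)) (.mul (.v 0) (.add (.c (-706544093952)) (.mul (.v 0) (.c (-4791405021696)))))))))))) (.mul (.v 2) (.mul (.v 2) (.add (.add (.add (.add (.c 2826576898125840) (.mul (.v 0) (.add (.c 371090846421216) (.mul (.v 0) (.add (.c 1177570120235928) (.mul (.v 0) (.add (.c (-20871811521000)) (.mul (.v 0) (.c (-117574369837056)))))))))) (.mul (.v 1) (.add (.add (.c (-283153227525192)) (.mul (.v 0) (.add (.c 651676366096092)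 (.mul (.v 0) (.add (.c 24797577435000) (.mul (.v 0) (.c (-64131474456576)))))))) (.mul (.v 1) (.add (.c (-4684007815004160)) (.mul (.v 0) (.add (.c (-1799867813068800)) (.mul (.v 0) (.c 384788846739456))))))))) (.mul (.v 3) (.add (.c (-474970531829760)) (.mul (.v 0) (.add (.c (-350251813048320)) (.mul (.v 0) (.add (.c (-149988984422400)) (.mul (.v 0) (.c 32065737228288))))))))) (.mul (.v 2) (.mul (.v 2) (.add (.c (-2342003907502080)) (.mul (.v 0) (.add (.c (-899933906534400)) (.mul (.v 0) (.c 192394423369728)))))))))))))) (.mul (.v 4) (.add (.add (.mul (.v 3) (.mul (.v 3) (.add (.add (.c (-116853812035048)) (.mul (.v 0) (.add (.c (-277495090705834)) (.mul (.v 0) (.add (.c (-314569855956146)) (.mul (.v 0) (.add (.c 56542097466988) (.mul (.v 0) (.add (.c (-65311157406260)) (.mul (.v 0) (.add (.c (-7935079171634)) (.mul (.v 0) (.add (.c (-403681961600)) (.mul (.v 0) (.c (-12130406696960)))))))))))))))) (.mul (.v 1) (.add (.add (.c 11556388298564) (.mul (.v 0) (.add (.c (-26551528780628)) (.mul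 (.v 0) (.add (.c 133714321040004) (.mul (.v 0) (.add (.c (-125770409524184)) (.mul (.v 0) (.add (.c (-38318245254992)) (.mul (.v 0) (.add (.c 75373728185216) (.mul (.v 0) (.add (.c 548026412544) (.mul (.v 0) (.c (-2416049809280)))))))))))))))) (.mul (.v 1) (.add (.c 1379584675968) (.mul (.v 0) (.add (.c 4379877153920) (.mul (.v 0) (.add (.c (-2415172375936)) (.mul (.v 0) (.add (.c 35151881673920) (.mul (.v 0) (.add (.c (-106186627680064)) (.mul (.v 0) (.add (.c 24409104579776) (.mul (.v 0) (.c 15074948681216))))))))))))))))))) (.mul (.v 2) (.mul (.v 2) (.add (.add (.add (.add (.c (-1674262275565790)) (.mul (.v 0) (.add (.c (-1147387289496484)) (.mul (.v 0) (.add (.c 813430524584840) (.mul (.v 0) (.add (.c 900666081953778) (.mul (.v 0) (.add (.c 959704385968892) (.mul (.v 0) (.add (.c 123845081436698) (.mul (.v 0) (.add (.c (-138173455418688)) (.mul (.v 0) (.c 139495780853952))))))))))))))) (.mul (.v 1) (.add (.add (.c (-1365950011546362)) (.mul (.v 0) (.add (.c (-2628551828288986)) (.mul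 (.v 0) (.add (.c (-1939563551416510)) (.mul (.v 0) (.add (.c 715543285563016) (.mul (.v 0) (.add (.c (-257213074779990)) (.mul (.v 0) (.add (.c (-270309775067260)) (.mul (.v 0) (.add (.c 257381948224512) (.mul (.v 0) (.c 9387134761280))))))))))))))) (.mul (.v 1) (.add (.add (.c 5035161224717726) (.mul (.v 0) (.add (.c 3218163187538486) (.mul (.v 0) (.add (.c 2272228572706796) (.mul (.v 0) (.add (.c (-2111103863493980)) (.mul (.v 0) (.add (.c 280191186669504) (.mul (.v 0) (.add (.c 427306115353344) (.mul (.v 0) (.c 11563883947328))))))))))))) (.mul (.v 1) (.add (.add (.c 1167409012777496) (.mul (.v 0) (.add (.c 710970270914056) (.mul (.v 0) (.add (.c 104757640124472) (.mul (.v 0) (.add (.c (-61179517854336)) (.mul (.v 0) (.add (.c 14776573290624) (.mul (.v 0) (.c 2176749186048))))))))))) (.mul (.v 1) (.mul (.v 0) (.add (.c (-2342003907502080)) (.mul (.v 0) (.c 599974501662720)))))))))))) (.mul (.v 3) (.add (.add (.add (.c (-2603950995519312)) (.mul (.v 0) (.add (.c (-3789817664259940)) (.mul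 (.v 0) (.add (.c (-1710116221951784)) (.mul (.v 0) (.add (.c 959203538144172) (.mul (.v 0) (.add (.c (-209954560952822)) (.mul (.v 0) (.add (.c (-361887461283904)) (.mul (.v 0) (.c 139495780853952))))))))))))) (.mul (.v 1) (.add (.add (.c (-108885281878202)) (.mul (.v 0) (.add (.c (-520423526696378)) (.mul (.v 0) (.add (.c 2178272738732908) (.mul (.v 0) (.add (.c (-2274029636701124)) (.mul (.v 0) (.add (.c 214513724646528) (.mul (.v 0) (.add (.c 446670648830208) (.mul (.v 0) (.c 9387134761280))))))))))))) (.mul (.v 1) (.add (.c 428853230786048) (.mul (.v 0) (.add (.c 393293600412352) (.mul (.v 0) (.add (.c (-166382108408256)) (.mul (.v 0) (.add (.c 38816232422784) (.mul (.v 0) (.add (.c 14776573290624) (.mul (.v 0) (.c 2176749186048))))))))))))))) (.mul (.v 3) (.mul (.v 0) (.add (.c 10842610682880) (.mul (.v 0) (.add (.c (-2083244797440)) (.mul (.v 0) (.c 1626391602432)))))))))) (.mul (.v 2) (.mul (.v 2) (.add (.add (.add (.add (.c (-3597149161240260)) (.mul (.v 0) (.add (.c (-2307774731122944))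 (.mul (.v 0) (.add (.c 27520961302800) (.mul (.v 0) (.add (.c (-247398771852648)) (.mul (.v 0) (.c 122217028116480))))))))) (.mul (.v 1) (.add (.add (.c (-312083647742988)) (.mul (.v 0) (.add (.c (-285728676835356)) (.mul (.v 0) (.add (.c (-139134492568596)) (.mul (.v 0) (.c 66663833518080))))))) (.mul (.v 1) (.mul (.v 0) (.add (.c 1561335938334720) (.mul (.v 0) (.c (-399983001108480))))))))) (.mul (.v 3) (.add (.c 260222656389120) (.mul (.v 0) (.add (.c (-41664895948800)) (.mul (.v 0) (.add (.c 130111328194560) (.mul (.v 0) (.c (-33331916759040)))))))))) (.mul (.v 2) (.mul (.v 2) (.mul (.v 0) (.add (.c 780667969167360) (.mul (.v 0) (.c (-199991500554240)))))))))))))) (.mul (.v 4) (.add (.add (.mul (.v 3) (.mul (.v 3) (.add (.add (.c 117204782944620) (.mul (.v 0) (.add (.c 367485140146748) (.mul (.v 0) (.add (.c 361264379620410) (.mul (.v 0) (.add (.c 173881353214496) (.mul (.v 0) (.add (.c (-40253458375568)) (.mul (.v 0) (.add (.c 49154698327404) (.mul (.v 0) (.add (.c (-25078608842176))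 (.mul (.v 0) (.c 10648737813120))))))))))))))) (.mul (.v 1) (.add (.add (.c (-9074804357656)) (.mul (.v 0) (.add (.c (-19174086992984)) (.mul (.v 0) (.add (.c 13581215173480) (.mul (.v 0) (.add (.c (-55315381821756)) (.mul (.v 0) (.add (.c 77446154652740) (.mul (.v 0) (.add (.c (-35939555417216)) (.mul (.v 0) (.add (.c (-2851704508416)) (.mul (.v 0) (.c 1263141733440))))))))))))))) (.mul (.v 1) (.add (.c (-124906124736)) (.mul (.v 0) (.add (.c (-1477131063936)) (.mul (.v 0) (.add (.c 13833279384704) (.mul (.v 0) (.add (.c (-35964370918976)) (.mul (.v 0) (.add (.c 12509391241152) (.mul (.v 0) (.add (.c 4854290376896) (.mul (.v 0) (.c (-2426134348928)))))))))))))))))))) (.mul (.v 2) (.mul (.v 2) (.add (.add (.add (.add (.c 2250823637413016) (.mul (.v 0) (.add (.c 2739978489696356) (.mul (.v 0) (.add (.c (-925948293006398)) (.mul (.v 0) (.add (.c (-1692838348484212)) (.mul (.v 0) (.add (.c (-842962460830500)) (.mul (.v 0) (.add (.c (-179511688240920)) (.mul (.v 0) (.add (.c 85800563582592) (.mul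 (.v 0) (.c (-28498041421056)))))))))))))))) (.mul (.v 1) (.add (.add (.c 1698384191317318) (.mul (.v 0) (.add (.c 3982320496145968) (.mul (.v 0) (.add (.c 3443874628167968) (.mul (.v 0) (.add (.c 648768077009940) (.mul (.v 0) (.add (.c (-190508686879596)) (.mul (.v 0) (.add (.c 192595725273620) (.mul (.v 0) (.add (.c (-45017876956160)) (.mul (.v 0) (.c 76013140480))))))))))))))) (.mul (.v 1) (.add (.add (.c (-8725586783952588)) (.mul (.v 0) (.add (.c (-5926643286957584)) (.mul (.v 0) (.add (.c (-1353388500601158)) (.mul (.v 0) (.add (.c 99300335468004) (.mul (.v 0) (.add (.c 334833767453632) (.mul (.v 0) (.add (.c (-89479624736000)) (.mul (.v 0) (.c (-1076284785664)))))))))))))) (.mul (.v 1) (.add (.c (-1155345733770408)) (.mul (.v 0) (.add (.c (-827534795165528)) (.mul (.v 0) (.add (.c (-145699561581144)) (.mul (.v 0) (.add (.c 90299660320896) (.mul (.v 0) (.add (.c 16100792861696) (.mul (.v 0) (.c (-1152297926144)))))))))))))))))) (.mul (.v 3) (.add (.add (.c 3396640781302618) (.mul (.v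 0) (.add (.c 5915147672064130) (.mul (.v 0) (.add (.c 3525907468820212) (.mul (.v 0) (.add (.c 339316114420644) (.mul (.v 0) (.add (.c (-240483289051220)) (.mul (.v 0) (.add (.c 132262388976640) (.mul (.v 0) (.c (-28498041421056)))))))))))))) (.mul (.v 1) (.add (.add (.c (-317743879576668)) (.mul (.v 0) (.add (.c 958218987259544) (.mul (.v 0) (.add (.c (-702202932818054)) (.mul (.v 0) (.add (.c 60171931319268) (.mul (.v 0) (.add (.c 288916545633472) (.mul (.v 0) (.add (.c (-97366963657088)) (.mul (.v 0) (.c 76013140480))))))))))))) (.mul (.v 1) (.mul (.v 0) (.add (.c 87953684595328) (.mul (.v 0) (.add (.c (-87693215127552)) (.mul (.v 0) (.add (.c 90299660320896) (.mul (.v 0) (.add (.c 16100792861696) (.mul (.v 0) (.c (-1152297926144))))))))))))))))) (.mul (.v 2) (.mul (.v 2) (.add (.add (.c 5326608174349860) (.mul (.v 0) (.add (.c 4710898346244060) (.mul (.v 0) (.add (.c 516486172810608) (.mul (.v 0) (.c (-43096036205952)))))))) (.mul (.v 1) (.add (.c 860565168234132) (.mul (.v 0) (.add (.c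 736908307942956) (.mul (.v 0) (.c 52246476581988))))))))))))) (.mul (.v 4) (.add (.add (.mul (.v 3) (.mul (.v 3) (.add (.add (.c (-87398604223384)) (.mul (.v 0) (.add (.c (-345240028843954)) (.mul (.v 0) (.add (.c (-418950548049668)) (.mul (.v 0) (.add (.c (-222129590994636)) (.mul (.v 0) (.add (.c (-17913813009298)) (.mul (.v 0) (.add (.c (-11727518525212)) (.mul (.v 0) (.add (.c 7141258605056) (.mul (.v 0) (.c (-1615076074112)))))))))))))))) (.mul (.v 1) (.add (.add (.c 7099775712836) (.mul (.v 0) (.add (.c 20812912189100) (.mul (.v 0) (.add (.c (-5259718785260)) (.mul (.v 0) (.add (.c 16727711694284) (.mul (.v 0) (.add (.c (-10308155674812)) (.mul (.v 0) (.add (.c 782944416384) (.mul (.v 0) (.add (.c 132984792128) (.mul (.v 0) (.c 58533088512))))))))))))))) (.mul (.v 1) (.mul (.v 0) (.add (.c 41635374912) (.mul (.v 0) (.add (.c 384350860800) (.mul (.v 0) (.add (.c (-4125391960704)) (.mul (.v 0) (.add (.c 11183392246464) (.mul (.v 0) (.add (.c (-1830029959872)) (.mul (.v 0) (.c (-1815053606592)))))))))))))))))))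 (.mul (.v 2) (.mul (.v 2) (.add (.add (.add (.add (.c (-2094633521192724)) (.mul (.v 0) (.add (.c (-4102214183372126)) (.mul (.v 0) (.add (.c (-232401846666610)) (.mul (.v 0) (.add (.c 2428068736653816) (.mul (.v 0) (.add (.c 1390581670144342) (.mul (.v 0) (.add (.c 201716052990540) (.mul (.v 0) (.add (.c 26671508901504) (.mul (.v 0) (.c (-17977908081024)))))))))))))))) (.mul (.v 1) (.add (.add (.c (-1556797687387532)) (.mul (.v 0) (.add (.c (-4869621172352976)) (.mul (.v 0) (.add (.c (-4819984631505570)) (.mul (.v 0) (.add (.c (-1617453660433678)) (.mul (.v 0) (.add (.c (-161591271433372)) (.mul (.v 0) (.add (.c 41800136350692) (.mul (.v 0) (.add (.c (-32724493632768)) (.mul (.v 0) (.c (-809738423808)))))))))))))))) (.mul (.v 1) (.add (.add (.c 9875677214078682) (.mul (.v 0) (.add (.c 10573887721867440) (.mul (.v 0) (.add (.c 1200089810789514) (.mul (.v 0) (.add (.c 164824771490988) (.mul (.v 0) (.add (.c 26482058325504) (.mul (.v 0) (.add (.c (-59503827199296)) (.mul (.v 0) (.c (-809738423808))))))))))))))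 (.mul (.v 1) (.add (.c 1274716483868112) (.mul (.v 0) (.add (.c 1405031969074656) (.mul (.v 0) (.c 176932697769408))))))))))) (.mul (.v 3) (.add (.add (.c (-3421667241876440)) (.mul (.v 0) (.add (.c (-7187951237200008)) (.mul (.v 0) (.add (.c (-4632574143843570)) (.mul (.v 0) (.add (.c (-985054177150930)) (.mul (.v 0) (.add (.c (-6535619380852)) (.mul (.v 0) (.add (.c 56760289010112) (.mul (.v 0) (.c (-17977908081024)))))))))))))) (.mul (.v 1) (.add (.c 50180005902138) (.mul (.v 0) (.add (.c 4150862621808) (.mul (.v 0) (.add (.c (-430443299767038)) (.mul (.v 0) (.add (.c 170427057233964) (.mul (.v 0) (.add (.c 26482058325504) (.mul (.v 0) (.add (.c (-59503827199296)) (.mul (.v 0) (.c (-809738423808)))))))))))))))))) (.mul (.v 2) (.mul (.v 2) (.add (.add (.c (-5886977346426564)) (.mul (.v 0) (.add (.c (-6812667288851412)) (.mul (.v 0) (.add (.c (-1155120326103120)) (.mul (.v 0) (.c 5602285742976))))))) (.mul (.v 1) (.add (.c (-895308129496296)) (.mul (.v 0) (.add (.c (-1091492898892104)) (.mul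 (.v 0) (.c (-164602003810848)))))))))))))) (.mul (.v 4) (.add (.add (.mul (.v 3) (.mul (.v 3) (.add (.add (.c 46647179670294) (.mul (.v 0) (.add (.c 238163354833002) (.mul (.v 0) (.add (.c 363859828998026) (.mul (.v 0) (.add (.c 214822426421640) (.mul (.v 0) (.add (.c 52485660305624) (.mul (.v 0) (.add (.c (-4456910876926)) (.mul (.v 0) (.add (.c 3053548878080) (.mul (.v 0) (.c (-1137640156672)))))))))))))))) (.mul (.v 1) (.add (.c (-4241204699892)) (.mul (.v 0) (.add (.c (-14266605885116)) (.mul (.v 0) (.add (.c (-9047210514216)) (.mul (.v 0) (.add (.c 6235876161488) (.mul (.v 0) (.add (.c (-6839367225496)) (.mul (.v 0) (.add (.c 3429559415552) (.mul (.v 0) (.add (.c 187627280896) (.mul (.v 0) (.c (-95445149952)))))))))))))))))))) (.mul (.v 2) (.mul (.v 2) (.add (.add (.add (.add (.c 1456702928344880) (.mul (.v 0) (.add (.c 3864075213960010) (.mul (.v 0) (.add (.c 938631582843598) (.mul (.v 0) (.add (.c (-2115623860311360)) (.mul (.v 0) (.add (.c (-1852134204196488)) (.mul (.v 0) (.c (-402194383124058))))))))))))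 (.mul (.v 1) (.add (.add (.c 1026310122302848) (.mul (.v 0) (.add (.c 3941904949830970) (.mul (.v 0) (.add (.c 5351482957649462) (.mul (.v 0) (.add (.c 2303471148537834) (.mul (.v 0) (.add (.c 294186392808898) (.mul (.v 0) (.c 21571898668572))))))))))) (.mul (.v 1) (.add (.add (.c (-8474264469041304)) (.mul (.v 0) (.add (.c (-11847338662730148)) (.mul (.v 0) (.add (.c (-2057469832784544)) (.mul (.v 0) (.c (-2883185989656)))))))) (.mul (.v 1) (.add (.c (-1025399316072360)) (.mul (.v 0) (.add (.c (-1508536038241104)) (.mul (.v 0) (.c (-249686235304248)))))))))))) (.mul (.v 3) (.add (.add (.c 2581169335721206) (.mul (.v 0) (.add (.c 6446939106238462) (.mul (.v 0) (.add (.c 4872244275935798) (.mul (.v 0) (.add (.c 1193770823263506) (.mul (.v 0) (.c 30770754419158))))))))) (.mul (.v 1) (.add (.c (-44061764346600)) (.mul (.v 0) (.add (.c 45617498950524) (.mul (.v 0) (.add (.c 167682498707640) (.mul (.v 0) (.c 38487955109664))))))))))) (.mul (.v 2) (.mul (.v 2) (.add (.add (.c 4811520421345188)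 (.mul (.v 0) (.add (.c 7267176140275932) (.mul (.v 0) (.add (.c 1549317491124024) (.mul (.v 0) (.c 41371141099320))))))) (.mul (.v 1) (.add (.c 674248665150804) (.mul (.v 0) (.add (.c 1108949114518632) (.mul (.v 0) (.c 230927730657972))))))))))))) (.mul (.v 4) (.add (.add (.mul (.v 3) (.mul (.v 3) (.add (.add (.c (-16803643564164)) (.mul (.v 0) (.add (.c (-117810963422034)) (.mul (.v 0) (.add (.c (-225967791218200)) (.mul (.v 0) (.add (.c (-164349488149336)) (.mul (.v 0) (.add (.c (-43875363442284)) (.mul (.v 0) (.c (-2020028813070)))))))))))) (.mul (.v 1) (.add (.c 1661263612908) (.mul (.v 0) (.add (.c 8364346598312) (.mul (.v 0) (.add (.c 6617984071068) (.mul (.v 0) (.add (.c (-976201582676)) (.mul (.v 0) (.c (-317334135504)))))))))))))) (.mul (.v 2) (.mul (.v 2) (.add (.add (.add (.add (.c (-767649993208504)) (.mul (.v 0) (.add (.c (-2730079910536932)) (.mul (.v 0) (.add (.c (-760807139638990)) (.mul (.v 0) (.add (.c 1680084320062790) (.mul (.v 0) (.add (.c 1603834364806400) (.mul (.v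 0) (.c 498618465471942))))))))))) (.mul (.v 1) (.add (.add (.c (-445903786560750)) (.mul (.v 0) (.add (.c (-2115763526239888)) (.mul (.v 0) (.add (.c (-4134045529486250)) (.mul (.v 0) (.add (.c (-2478700264549486)) (.mul (.v 0) (.add (.c (-377858466737950)) (.mul (.v 0) (.c (-30189222824364)))))))))))) (.mul (.v 1) (.add (.add (.c 5176896731320992) (.mul (.v 0) (.add (.c 9808012975398768) (.mul (.v 0) (.add (.c 2000055135617400) (.mul (.v 0) (.c 27651545785404))))))) (.mul (.v 1) (.add (.c 590096775758304) (.mul (.v 0) (.add (.c 1176577547865240) (.mul (.v 0) (.c 233819554372992))))))))))) (.mul (.v 3) (.add (.add (.c (-1399596318395478)) (.mul (.v 0) (.add (.c (-4294640086562938)) (.mul (.v 0) (.add (.c (-3711107390725874)) (.mul (.v 0) (.add (.c (-1089639348401056)) (.mul (.v 0) (.c (-37080524216914)))))))))) (.mul (.v 1) (.add (.c 27925980302832) (.mul (.v 0) (.add (.c (-5098811566464)) (.mul (.v 0) (.add (.c (-118492503780072)) (.mul (.v 0) (.c (-35606830837068)))))))))))) (.mul (.v 2)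 (.mul (.v 2) (.add (.add (.c (-2819566292403432)) (.mul (.v 0) (.add (.c (-5706878313168300)) (.mul (.v 0) (.add (.c (-1431287479742712)) (.mul (.v 0) (.c (-63258376622472)))))))) (.mul (.v 1) (.add (.c (-362310730568304)) (.mul (.v 0) (.add (.c (-810418658715228)) (.mul (.v 0) (.c (-213640985022336)))))))))))))) (.mul (.v 4) (.add (.add (.mul (.v 3) (.mul (.v 3) (.add (.add (.c 3660211319522) (.mul (.v 0) (.add (.c 39309262669804) (.mul (.v 0) (.add (.c 98856578829764) (.mul (.v 0) (.add (.c 87398728949960) (.mul (.v 0) (.add (.c 28521812302462) (.mul (.v 0) (.c 1571183039764))))))))))) (.mul (.v 1) (.add (.c (-394121912852)) (.mul (.v 0) (.add (.c (-3295983904888)) (.mul (.v 0) (.add (.c (-3980631187332)) (.mul (.v 0) (.add (.c 498460973548) (.mul (.v 0) (.c 209716097512))))))))))))) (.mul (.v 2) (.mul (.v 2) (.add (.add (.add (.add (.c 296422118571752) (.mul (.v 0) (.add (.c 1526673920733706) (.mul (.v 0) (.add (.c 429950370489708) (.mul (.v 0) (.add (.c (-1399566334371406)) (.mul (.v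 0) (.add (.c (-974639727652334)) (.mul (.v 0) (.c (-412626482048596)))))))))))) (.mul (.v 1) (.add (.add (.c 111152195523934) (.mul (.v 0) (.add (.c 617516484585898) (.mul (.v 0) (.add (.c 2107216396755140) (.mul (.v 0) (.add (.c 1961309329407864) (.mul (.v 0) (.add (.c 344108615703922) (.mul (.v 0) (.c 30273237359136))))))))))) (.mul (.v 1) (.add (.add (.c (-2127807473655588)) (.mul (.v 0) (.add (.c (-5777322956441862)) (.mul (.v 0) (.add (.c (-1349240034961284)) (.mul (.v 0) (.c (-28393686965934)))))))) (.mul (.v 1) (.add (.c (-230258151855576)) (.mul (.v 0) (.add (.c (-655232797120368)) (.mul (.v 0) (.c (-151178231792880)))))))))))) (.mul (.v 3) (.add (.add (.c 514635076440574) (.mul (.v 0) (.add (.c 2052024988869010) (.mul (.v 0) (.add (.c 2005630389224780) (.mul (.v 0) (.add (.c 694196309537892) (.mul (.v 0) (.c 23165588892952))))))))) (.mul (.v 1) (.add (.c (-11841189705060)) (.mul (.v 0) (.add (.c (-10988174012838)) (.mul (.v 0) (.add (.c 58792474111308) (.mul (.v 0) (.c 22694998927410)))))))))))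 (.mul (.v 2) (.mul (.v 2) (.add (.add (.c 1118660712858648) (.mul (.v 0) (.add (.c 3207758610825408) (.mul (.v 0) (.add (.c 920481318625176) (.mul (.v 0) (.c 51088685893344))))))) (.mul (.v 1) (.add (.c 131942677255980) (.mul (.v 0) (.add (.c 420102119757768) (.mul (.v 0) (.c 136169993564424))))))))))))) (.mul (.v 4) (.add (.add (.mul (.v 3) (.mul (.v 3) (.add (.add (.c (-364089966660)) (.mul (.v 0) (.add (.c (-7920846808534)) (.mul (.v 0) (.add (.c (-28590930947418)) (.mul (.v 0) (.add (.c (-30895239896418)) (.mul (.v 0) (.add (.c (-12374832483576)) (.mul (.v 0) (.c (-755578391146)))))))))))) (.mul (.v 1) (.add (.c 42714520712) (.mul (.v 0) (.add (.c 785559998896) (.mul (.v 0) (.add (.c 1605236773720) (.mul (.v 0) (.add (.c (-166958620704)) (.mul (.v 0) (.c (-92390376976)))))))))))))) (.mul (.v 2) (.mul (.v 2) (.add (.add (.add (.add (.c (-74261659854772)) (.mul (.v 0) (.add (.c (-648055688916570)) (.mul (.v 0) (.add (.c (-323907965047282)) (.mul (.v 0) (.add (.c 1021566298933432) (.mul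 (.v 0) (.add (.c 451650483914392) (.mul (.v 0) (.c 214666860633248))))))))))) (.mul (.v 1) (.add (.add (.c (-10099482164074)) (.mul (.v 0) (.add (.c (-6589312618312)) (.mul (.v 0) (.add (.c (-572743271043000)) (.mul (.v 0) (.add (.c (-1112306049051486)) (.mul (.v 0) (.add (.c (-222228767777028)) (.mul (.v 0) (.c (-21209002553136)))))))))))) (.mul (.v 1) (.add (.add (.c 526869165172446) (.mul (.v 0) (.add (.c 2289643363488666) (.mul (.v 0) (.add (.c 605085212953038) (.mul (.v 0) (.c 15491528603820))))))) (.mul (.v 1) (.add (.c 54546912426648) (.mul (.v 0) (.add (.c 247124749308432) (.mul (.v 0) (.c 65136021362064))))))))))) (.mul (.v 3) (.add (.add (.c (-114821078600914)) (.mul (.v 0) (.add (.c (-663719870161240)) (.mul (.v 0) (.add (.c (-724413783105216)) (.mul (.v 0) (.add (.c (-293958097311690)) (.mul (.v 0) (.c (-8360783174040)))))))))) (.mul (.v 1) (.add (.c 2996854042254) (.mul (.v 0) (.add (.c 8335425899946) (.mul (.v 0) (.add (.c (-19394206160730)) (.mul (.v 0) (.c (-9631898198244))))))))))))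 (.mul (.v 2) (.mul (.v 2) (.add (.add (.c (-268776185102052)) (.mul (.v 0) (.add (.c (-1219861721074080)) (.mul (.v 0) (.add (.c (-395307706124880)) (.mul (.v 0) (.c (-25123426802064)))))))) (.mul (.v 1) (.add (.c (-29184841828620)) (.mul (.v 0) (.add (.c (-146681076480480)) (.mul (.v 0) (.c (-57791389189464)))))))))))))) (.mul (.v 4) (.add (.add (.mul (.v 3) (.mul (.v 3) (.add (.mul (.v 0) (.add (.c 728179933320) (.mul (.v 0) (.add (.c 4861059658502) (.mul (.v 0) (.add (.c 6468648142080) (.mul (.v 0) (.add (.c 3228698640210) (.mul (.v 0) (.c 210847079286)))))))))) (.mul (.v 1) (.mul (.v 0) (.add (.c (-85429041424)) (.mul (.v 0) (.add (.c (-388754259236)) (.mul (.v 0) (.add (.c 32423715592) (.mul (.v 0) (.c 24447909616)))))))))))) (.mul (.v 2) (.mul (.v 2) (.add (.add (.add (.add (.c 8838960419576) (.mul (.v 0) (.add (.c 178085756634958) (.mul (.v 0) (.add (.c 231396280573920) (.mul (.v 0) (.add (.c (-497127513282160)) (.mul (.v 0) (.add (.c (-183333867621250)) (.mul (.v 0) (.c (-60718702671282))))))))))))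 (.mul (.v 1) (.add (.add (.c (-784672075542)) (.mul (.v 0) (.add (.c (-53897960288254)) (.mul (.v 0) (.add (.c (-8952948814654)) (.mul (.v 0) (.add (.c 426710708274210) (.mul (.v 0) (.add (.c 97274195395114) (.mul (.v 0) (.c 9857705411976))))))))))) (.mul (.v 1) (.add (.add (.c (-59338768607490)) (.mul (.v 0) (.add (.c (-546632605393122)) (.mul (.v 0) (.add (.c (-162446149757058)) (.mul (.v 0) (.c (-4658987832168)))))))) (.mul (.v 1) (.add (.c (-5918018468400)) (.mul (.v 0) (.add (.c (-56533847280096)) (.mul (.v 0) (.c (-16866597452856)))))))))))) (.mul (.v 3) (.add (.add (.c 11736988230390) (.mul (.v 0) (.add (.c 130201445791466) (.mul (.v 0) (.add (.c 155517672577550) (.mul (.v 0) (.add (.c 72308758192134) (.mul (.v 0) (.c 1798458928642))))))))) (.mul (.v 1) (.add (.c (-342063808290)) (.mul (.v 0) (.add (.c (-2668747197138)) (.mul (.v 0) (.add (.c 3790803310518) (.mul (.v 0) (.c 2456399870736))))))))))) (.mul (.v 2) (.mul (.v 2) (.add (.add (.c 29498352399600) (.mul (.v 0) (.add (.c 280776252788364)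 (.mul (.v 0) (.add (.c 102096307644816) (.mul (.v 0) (.c 7115387702904))))))) (.mul (.v 1) (.add (.c 2959009234200) (.mul (.v 0) (.add (.c 30895078861080) (.mul (.v 0) (.c 14738399224500))))))))))))) (.mul (.v 4) (.add (.add (.mul (.v 3) (.mul (.v 3) (.add (.mul (.v 0) (.mul (.v 0) (.add (.c (-364089966660)) (.mul (.v 0) (.add (.c (-600424169490)) (.mul (.v 0) (.add (.c (-383336300302)) (.mul (.v 0) (.c (-26253821816)))))))))) (.mul (.v 1) (.mul (.v 0) (.mul (.v 0) (.add (.c 42714520712) (.mul (.v 0) (.add (.c (-2683826808)) (.mul (.v 0) (.c (-2940197332)))))))))))) (.mul (.v 2) (.mul (.v 2) (.add (.add (.add (.mul (.v 0) (.add (.c (-22594312905752)) (.mul (.v 0) (.add (.c (-90590514136310)) (.mul (.v 0) (.add (.c 130876589369362) (.mul (.v 0) (.add (.c 61152078858632) (.mul (.v 0) (.c 5194180390162)))))))))) (.mul (.v 1) (.add (.mul (.v 0) (.add (.c 11826827764374) (.mul (.v 0) (.add (.c 53623009382140) (.mul (.v 0) (.add (.c (-98783610987552)) (.mul (.v 0) (.add (.c (-25921527651562)) (.mul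 (.v 0) (.c (-2731139161728))))))))))) (.mul (.v 1) (.add (.mul (.v 0) (.add (.c 59338768607490) (.mul (.v 0) (.add (.c 19763440220676) (.mul (.v 0) (.c 610259923980)))))) (.mul (.v 1) (.mul (.v 0) (.add (.c 5918018468400) (.mul (.v 0) (.c 1986934853448)))))))))) (.mul (.v 3) (.add (.mul (.v 0) (.add (.c (-11736988230390)) (.mul (.v 0) (.add (.c (-14832443481440)) (.mul (.v 0) (.add (.c (-6492148636356)) (.mul (.v 0) (.c (-323645560450))))))))) (.mul (.v 1) (.mul (.v 0) (.add (.c 342063808290) (.mul (.v 0) (.add (.c (-328106845116)) (.mul (.v 0) (.c (-285039505404))))))))))) (.mul (.v 2) (.mul (.v 2) (.add (.mul (.v 0) (.add (.c (-29498352399600)) (.mul (.v 0) (.add (.c (-12000067686312)) (.mul (.v 0) (.c (-895299429384))))))) (.mul (.v 1) (.mul (.v 0) (.add (.c (-2959009234200)) (.mul (.v 0) (.c (-1710237032460))))))))))))) (.mul (.v 4) (.mul (.v 2) (.mul (.v 2) (.add (.add (.mul (.v 0) (.mul (.v 0) (.add (.c 13755352486176) (.mul (.v 0) (.add (.c (-13233582643876)) (.mul (.v 0) (.add (.c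 (-10639299598464)) (.mul (.v 0) (.c 859471945608))))))))) (.mul (.v 1) (.mul (.v 0) (.mul (.v 0) (.add (.c (-11042155688832)) (.mul (.v 0) (.add (.c 10374433070188) (.mul (.v 0) (.add (.c 3173676896584) (.mul (.v 0) (.c 341392395204))))))))))) (.mul (.v 3) (.mul (.v 0) (.mul (.v 0) (.mul (.v 0) (.add (.c (-547923709112)) (.mul (.v 0) (.c 59269779472)))))))))))))))))))))))))))))))))))))))))))

/-- the coefficients and the Bernstein coefficients -/
def L : List (Nat × PE) := [
  (1, Vale.Agent.P224.SP.K.K0.P),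
  (1, Vale.Agent.P224.SP.K.K1.P),
  (1, Vale.Agent.P224.SP.K.K2.P),
  (1, Vale.Agent.P224.SP.K.K3.P),
  (2, Vale.Agent.P224.SP.K.K4.P),
  (2, Vale.Agent.P224.SP.K.K5.P),
  (1, Vale.Agent.P224.SP.K.K6.P),
  (1, Vale.Agent.P224.SP.K.K7.P),
  (1, Vale.Agent.P224.SP.K.K8.P),
  (1, Vale.Agent.P224.SP.K.K9.P),
  (2, Vale.Agent.P224.SP.K.K10.P),
  (1, Vale.Agent.P224.SP.K.K11.P),
  (2, Vale.Agent.P224.SP.K.K12.P),
  (2, Vale.Agent.P224.SP.K.K13.P),
  (1, Vale.Agent.P224.SP.K.K14.P),
  (4, Vale.Agent.P224.SP.K.K15.P),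
  (1, Vale.Agent.P224.SP.K.K16.P),
  (8, Vale.Agent.P224.SP.K.K17.P)]

/-- the integers replacing the first four variables -/
def Ms : List Nat := [
  Nat.add (Nat.pow 2 84) 1075527200898229613,
  Nat.add (Nat.pow 2 662) 1070408644019699239,
  Nat.add (Nat.pow 2 2890) 1026802302190162061,
  Nat.add (Nat.pow 2 17580) 836924351570040769]

set_option maxRecDepth 100000 in
/-- **The identity**, checked by the kernel. -/
theorem idT : chk Ms (.sub (.mul (.c (Int.ofNat 8)) Q) (tsum 1 0 1 17 L 0)) = true := by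
  decide +kernel

/-- **Positivity** on the interval. -/
theorem posT {E : Type*} [NormedAddCommGroup E] [InnerProductSpace ℝ E] {x N y w : E}
    (hx : ‖x‖ = 1) (hN : ‖N‖ = 1) (hy : ‖y‖ = 1) (hw : ‖w‖ = 1)
    (hxN : ⟪x, N⟫ = 0) (hyw : ⟪y, w⟫ = 0) {T : ℝ}
    (h0 : ((0 : ℤ) : ℝ) ≤ ((1 : ℤ) : ℝ) * T) (h1 : ((1 : ℤ) : ℝ) * T ≤ ((1 : ℤ) : ℝ)) :
    0 ≤ PE.ev (vT T ⟪x, y⟫ ⟪x, w⟫ ⟪N, y⟫ ⟪N, w⟫) Q :=
  pos_of_tsum 1 0 1 8 17 (by norm_num) idT
    (fun i hi => vT_ge _ _ _ _ _ (le_trans (by decide) hi)) h0 h1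
    (pl_cons (Vale.Agent.P224.SP.K.K0.pos hx hN hy hw hxN hyw T) (pl_cons (Vale.Agent.P224.SP.K.K1.pos hx hN hy hw hxN hyw T) (pl_cons (Vale.Agent.P224.SP.K.K2.pos hx hN hy hw hxN hyw T) (pl_cons (Vale.Agent.P224.SP.K.K3.pos hx hN hy hw hxN hyw T) (pl_cons (Vale.Agent.P224.SP.K.K4.pos hx hN hy hw hxN hyw T) (pl_cons (Vale.Agent.P224.SP.K.K5.pos hx hN hy hw hxN hyw T) (pl_cons (Vale.Agent.P224.SP.K.K6.pos hx hN hy hw hxN hyw T) (pl_cons (Vale.Agent.P224.SP.K.K7.pos hx hN hy hw hxN hyw T) (pl_cons (Vale.Agent.P224.SP.K.K8.pos hx hN hy hw hxN hyw T) (pl_cons (Vale.Agent.P224.SP.K.K9.pos hx hN hy hw hxN hyw T) (pl_cons (Vale.Agent.P224.SP.K.K10.pos hx hN hy hw hxN hyw T) (pl_cons (Vale.Agent.P224.SP.K.K11.pos hx hN hy hw hxN hyw T) (pl_cons (Vale.Agent.P224.SP.K.K12.pos hx hN hy hw hxN hyw T) (pl_cons (Vale.Agent.P224.SP.K.K13.pos hx hN hy hw hxN hyw T) (pl_cons (Vale.Agent.P224.SP.K.K14.pos hx hN hy hw hxN hyw T) (pl_cons (Vale.Agent.P224.SP.K.K15.pos hx hN hy hw hxN hyw T) (pl_cons (Vale.Agent.P224.SP.K.K16.pos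 hx hN hy hw hxN hyw T) (pl_cons (Vale.Agent.P224.SP.K.K17.pos hx hN hy hw hxN hyw T) pl_nil))))))))))))))))))

end

end Vale.Agent.P224.SP.K.TS
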